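import Vale.Agent.P080.C1.Compare.Modulus
import Mathlib.Analysis.Calculus.MeanValue
import Mathlib.Analysis.Calculus.ContDiff.RCLike
import Mathlib.Analysis.InnerProductSpace.Dual
import Mathlib.MeasureTheory.Integral.Bochner.ContinuousLinearMap
import Mathlib.MeasureTheory.Function.StronglyMeasurable.AEStronglyMeasurable
import Mathlib.MeasureTheory.Group.Integral
import Mathlib.MeasureTheory.Measure.Haar.Unique

/-!
# Boundary data: mollification of a flat configuration at a fixed parabolic scale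

On the boundary of an ellipsoid every squared distance from a boundary point is an affine function,
so bounded second differences give upper and lower planes at every boundary point.
-/

namespace Vale.Agent.P080.C1.Compare

open scoped ContDiff Topology RealInnerProductSpace NNReal
open Set Filter Metric MeasureTheory

/-- anisotropic scaling -/
noncomputable def scl (lam ζ : ℝ) : E3 →L[ℝ] E3 :=
  ζ⁻¹ • ((Real.sqrt lam)⁻¹ • ContinuousLinearMap.id ℝ E3 +
    (1 - (Real.sqrt lam)⁻¹) • (EuclideanSpace.proj (𝕜 := ℝ) (2 : Fin 3)).smulRight e3)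

/-- the inverse scaling -/
noncomputable def unscl (lam ζ : ℝ) : E3 →L[ℝ] E3 :=
  ζ • (Real.sqrt lam • ContinuousLinearMap.id ℝ E3 +
    (1 - Real.sqrt lam) • (EuclideanSpace.proj (𝕜 := ℝ) (2 : Fin 3)).smulRight e3)

lemma scl_apply (lam ζ : ℝ) (x : E3) :
    scl lam ζ x 0 = x 0 / (ζ * Real.sqrt lam) ∧ scl lam ζ x 1 = x 1 / (ζ * Real.sqrt lam) ∧
      scl lam ζ x 2 = x 2 / ζ := by
  refine ⟨?_, ?_, ?_⟩ <;> simp [scl, e3, div_eq_mul_inv] <;> ring

lemma unscl_apply (lam ζ : ℝ) (x : E3) :
    unscl lam ζ x 0 = ζ * Real.sqrt lam * x 0 ∧ unscl lam ζ x 1 = ζ * Real.sqrt lam * x 1 ∧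
      unscl lam ζ x 2 = ζ * x 2 := by
  refine ⟨?_, ?_, ?_⟩ <;> simp [unscl, e3] <;> ring

lemma unscl_scl {lam ζ : ℝ} (hlam : 0 < lam) (hζ : 0 < ζ) (x : E3) :
    unscl lam ζ (scl lam ζ x) = x := by
  have h := (Real.sqrt_pos.2 hlam).ne'
  obtain ⟨a, b, c⟩ := unscl_apply lam ζ (scl lam ζ x)
  obtain ⟨a', b', c'⟩ := scl_apply lam ζ x
  ext i; fin_cases i
  · change unscl lam ζ (scl lam ζ x) 0 = x 0; rw [a, a']; field_simp
  · change unscl lam ζ (scl lam ζ x) 1 = x 1; rw [b, b']; field_simp
  · change unscl lam ζ (scl lam ζ x) 2 = x 2; rw [c, c']; field_simp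

lemma scl_unscl {lam ζ : ℝ} (hlam : 0 < lam) (hζ : 0 < ζ) (x : E3) :
    scl lam ζ (unscl lam ζ x) = x := by
  have h := (Real.sqrt_pos.2 hlam).ne'
  obtain ⟨a, b, c⟩ := scl_apply lam ζ (unscl lam ζ x)
  obtain ⟨a', b', c'⟩ := unscl_apply lam ζ x
  ext i; fin_cases i
  · change scl lam ζ (unscl lam ζ x) 0 = x 0; rw [a, a']; field_simp
  · change scl lam ζ (unscl lam ζ x) 1 = x 1; rw [b, b']; field_simp
  · change scl lam ζ (unscl lam ζ x) 2 = x 2; rw [c, c']; field_simp

lemma norm_sq_scl {lam ζ : ℝ} (hlam : 0 < lam) (x : E3) :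
    ‖scl lam ζ x‖ ^ 2 = (x 2 ^ 2 + latSq x / lam) / ζ ^ 2 := by
  obtain ⟨a, b, c⟩ := scl_apply lam ζ x
  rw [norm_sq_eq_lat, latSq, latSq, a, b, c]
  simp only [div_pow, mul_pow, Real.sq_sqrt hlam.le]
  ring

lemma norm_scl_le {lam ζ : ℝ} (hlam : 0 < lam) (hlam1 : lam ≤ 1) (hζ : 0 < ζ) (x : E3) :
    ‖scl lam ζ x‖ ≤ ‖x‖ / (ζ * Real.sqrt lam) := by
  refine le_of_pow_le_pow_left₀ two_ne_zero (by positivity) ?_
  rw [norm_sq_scl hlam, div_pow, mul_pow, Real.sq_sqrt hlam.le, norm_sq_eq_lat, div_le_div_iff₀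
    (by positivity) (by positivity)]
  have h1 : x 2 ^ 2 * lam ≤ x 2 ^ 2 * 1 := mul_le_mul_of_nonneg_left hlam1 (sq_nonneg _)
  have h2 : (x 2 ^ 2 + latSq x / lam) * (ζ ^ 2 * lam) = ζ ^ 2 * (x 2 ^ 2 * lam + latSq x) := by
    field_simp
  rw [h2]
  nlinarith [mul_le_mul_of_nonneg_left h1 (sq_nonneg ζ)]

/-- the mollifying kernel -/
noncomputable def ker0 : E3 → ℝ := bump0.normed volume

lemma exists_ker_bounds : ∃ M : ℝ, 0 ≤ M ∧ (∀ a, |ker0 a| ≤ M) ∧ (∀ a, ‖fderiv ℝ ker0 a‖ ≤ M) ∧
    (∀ a b, |ker0 b - ker0 a| ≤ M * ‖b - a‖) ∧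
    ∀ a b, |ker0 b - ker0 a - fderiv ℝ ker0 a (b - a)| ≤ M * ‖b - a‖ ^ 2 := by
  have hs : ContDiff ℝ 2 ker0 := bump0.contDiff_normed
  have hc : HasCompactSupport ker0 := bump0.hasCompactSupport_normed
  obtain ⟨K1, hK1⟩ := ContDiff.lipschitzWith_of_hasCompactSupport hc
    (hs.of_le (by norm_num : (1 : WithTop ℕ∞) ≤ 2)) one_ne_zero
  obtain ⟨K2, hK2⟩ := ContDiff.lipschitzWith_of_hasCompactSupport (hc.fderiv ℝ)
    (hs.fderiv_right (m := 1) (by norm_num)) one_ne_zero
  obtain ⟨B, hB⟩ := hc.exists_bound_of_continuous hs.continuous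
  refine ⟨max (max B 0) (max (K1 : ℝ) K2), (le_max_right B 0).trans (le_max_left _ _),
    fun a => ?_, fun a => ?_, fun a b => ?_, fun a b => ?_⟩
  · have := hB a
    rw [Real.norm_eq_abs] at this
    exact this.trans ((le_max_left B 0).trans (le_max_left _ _))
  · exact (norm_fderiv_le_of_lipschitz ℝ hK1).trans ((le_max_left _ _).trans (le_max_right _ _))
  · have := hK1.dist_le_mul b a
    rw [Real.dist_eq, dist_eq_norm] at this
    exact this.trans (mul_le_mul_of_nonneg_right ((le_max_left _ _).trans (le_max_right _ _))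
      (norm_nonneg _))
  · have hd : Differentiable ℝ ker0 := hs.differentiable (by norm_num)
    have h := (convex_segment a b).norm_image_sub_le_of_norm_fderiv_le'
      (f := ker0) (φ := fderiv ℝ ker0 a) (C := (K2 : ℝ) * ‖b - a‖) (fun z _ => hd z)
      (fun z hz => by
        have := hK2.dist_le_mul z a
        rw [dist_eq_norm, dist_eq_norm] at this
        exact this.trans (mul_le_mul_of_nonneg_left (norm_sub_le_of_mem_segment hz) K2.2))
      (left_mem_segment ℝ a b) (right_mem_segment ℝ a b)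
    rw [← Real.norm_eq_abs]
    refine h.trans ?_
    rw [mul_assoc, ← sq]
    exact mul_le_mul_of_nonneg_right ((le_max_right _ _).trans (le_max_right _ _)) (sq_nonneg _)

/-- squared gauge of the domain of the comparison solution -/
noncomputable def ell (lam : ℝ) (x : E3) : ℝ := x 2 ^ 2 / (361 / 400) + latSq x / (3844 * lam)

/-- the domain of the comparison solution -/
def dom (lam : ℝ) : Set E3 := {x | ell lam x < 1}

lemma continuous_ell (lam : ℝ) : Continuous (ell lam) := by unfold ell latSq; fun_prop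

lemma isOpen_dom (lam : ℝ) : IsOpen (dom lam) := isOpen_lt (continuous_ell lam) continuous_const

lemma ell_eq_one {lam : ℝ} {y : E3} (hy : y ∈ frontier (dom lam)) : ell lam y = 1 :=
  frontier_lt_subset_eq (continuous_ell lam) continuous_const hy

lemma closure_dom {lam : ℝ} {y : E3} (hy : y ∈ closure (dom lam)) : ell lam y ≤ 1 :=
  closure_lt_subset_le (continuous_ell lam) continuous_const hy

lemma bounds_of_ell {lam : ℝ} (hlam : 0 < lam) {y : E3} (hy : ell lam y ≤ 1) :
    |y 2| ≤ 19 / 20 ∧ lat y ≤ 62 * Real.sqrt lam := by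
  have h0 : 0 ≤ y 2 ^ 2 / (361 / 400) := by positivity
  have h1 : 0 ≤ latSq y / (3844 * lam) := div_nonneg (latSq_nonneg y) (by positivity)
  unfold ell at hy
  have h2 : y 2 ^ 2 / (361 / 400) ≤ 1 := by linarith
  have h3 : latSq y / (3844 * lam) ≤ 1 := by linarith
  rw [div_le_one (by norm_num)] at h2
  rw [div_le_one (by positivity)] at h3
  refine ⟨?_, ?_⟩
  · refine le_of_pow_le_pow_left₀ two_ne_zero (by norm_num) ?_
    rw [sq_abs]; linarith
  · refine le_of_pow_le_pow_left₀ two_ne_zero (by positivity) ?_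
    rw [lat_sq, mul_pow, Real.sq_sqrt hlam.le]; linarith

/-- admissible slopes -/
def slopeSet (Λ lam : ℝ) : Set E3 := {k | |k 2 - 1| ≤ Λ * lam ∧ lat k ≤ Λ * Real.sqrt lam}

lemma lat_le_add (k : E3) : lat k ≤ |k 0| + |k 1| := by
  rw [lat, Real.sqrt_le_left (by positivity), latSq, add_sq, sq_abs, sq_abs]
  have : 0 ≤ |k 0| * |k 1| := by positivity
  linarith

lemma norm_single_scl {lam ζ : ℝ} (hlam : 0 < lam) (hζ : 0 < ζ) :
    ‖scl lam ζ (EuclideanSpace.single (2 : Fin 3) 1)‖ = 1 / ζ := by
  rw [← Real.sqrt_sq (norm_nonneg _), norm_sq_scl hlam]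
  simp [latSq, hζ.le]

/-- the boundary data: Lipschitz, close to `u`, with planes above and below at every boundary
point -/
theorem exists_data {om : ℝ} (hom : 0 < om) :
    ∃ Λ lam0 : ℝ, 0 < Λ ∧ 0 < lam0 ∧ ∀ lam u, 0 < lam → lam ≤ lam0 → Sub1 lam u →
      ∃ G : E3 → ℝ, LipschitzWith 2 G ∧ (∀ y ∈ frontier (dom lam), |G y - u y| ≤ om * lam) ∧
        ∀ y ∈ frontier (dom lam), ∃ k1 ∈ slopeSet Λ lam, ∃ k2 ∈ slopeSet Λ lam,
          ∀ z ∈ frontier (dom lam),
            G y + ⟪k2, z - y⟫ ≤ G z ∧ G z ≤ G y + ⟪k1, z - y⟫ := by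
  obtain ⟨ζ, lam1, hζ, hζ1, hlam1, hlam1', hmod⟩ := exists_modulus hom
  obtain ⟨M, hM0, hM1, hM2, hM3, hM4⟩ := exists_ker_bounds
  set V := (volume : Measure E3).real (closedBall (0 : E3) (66 / ζ)) with hV
  have hV0 : 0 ≤ V := measureReal_nonneg
  set Λ0 := V * M / ζ with hΛ0
  set Λ2 := 4 * 3844 * (V * M) / ζ ^ 2 with hΛ2
  refine ⟨2 * Λ0 + 2 * Λ2 + 1, min lam1 (1 / (Λ0 + 1) ^ 2), by positivity, by positivity,
    fun lam u hlam hle H => ?_⟩
  have hl : lam ≤ lam1 := hle.trans (min_le_left _ _)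
  have hlam11 : lam ≤ 1 := by linarith [hl.trans hlam1']
  set s := Real.sqrt lam with hs
  have hs0 : 0 < s := Real.sqrt_pos.2 hlam
  have hss : s * s = lam := Real.mul_self_sqrt hlam.le
  have hsΛ : Λ0 * s ≤ 1 := by
    have h := Real.sqrt_le_sqrt (hle.trans (min_le_right _ _))
    rw [← hs, show 1 / (Λ0 + 1) ^ 2 = (1 / (Λ0 + 1)) ^ 2 by rw [div_pow, one_pow],
      Real.sqrt_sq (by positivity), le_div_iff₀ (by positivity)] at h
    linarith
  obtain ⟨U, hUo, hu, hU, hflat⟩ := id H
  set T := scl lam ζ with hT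
  set T' := unscl lam ζ with hT'
  set P : Set E3 := T' ⁻¹' box lam with hP
  have hPc : IsClosed P := (isCompact_box hlam).isClosed.preimage T'.continuous
  set f : E3 → ℝ := P.indicator fun p => u (T' p) - (T' p) 2 with hf
  set B := closedBall (0 : E3) (66 / ζ) with hB
  have hPB : P ⊆ B := by
    intro p hp
    rw [hB, mem_closedBall, dist_zero_right]
    obtain ⟨h2, hl2⟩ : |(T' p) 2| ≤ 1 ∧ lat (T' p) ≤ R0 * s := hp
    rw [R0] at hl2
    rw [← scl_unscl hlam hζ p, ← hT']
    refine le_of_pow_le_pow_left₀ two_ne_zero (by positivity) ?_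
    rw [norm_sq_scl hlam, div_pow 66 ζ]
    refine div_le_div_of_nonneg_right ?_ (sq_nonneg _)
    have e1 : (T' p) 2 ^ 2 ≤ 1 := by
      rw [← sq_abs]; exact pow_le_one₀ (abs_nonneg _) h2
    have e2 : latSq (T' p) / lam ≤ 4096 := by
      rw [div_le_iff₀ hlam, ← lat_sq]
      calc _ ≤ (64 * s) ^ 2 := pow_le_pow_left₀ (lat_nonneg _) hl2 2
        _ = _ := by rw [mul_pow, sq s, hss]; norm_num
    linarith
  have hfb : ∀ p, ‖f p‖ ≤ B.indicator (fun _ => lam) p := by
    intro p
    by_cases hp : p ∈ P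
    · rw [hf, indicator_of_mem hp, indicator_of_mem (hPB hp), Real.norm_eq_abs]
      exact hflat _ hp
    · rw [hf, indicator_of_notMem hp, norm_zero]
      exact indicator_nonneg (fun _ _ => hlam.le) p
  have hBi : Integrable (B.indicator fun _ => lam) :=
    (integrableOn_const (isCompact_closedBall (0 : E3) (66 / ζ)).measure_lt_top.ne).integrable_indicator
      isClosed_closedBall.measurableSet
  have hBint : ∫ p, B.indicator (fun _ => lam) p = V * lam := by
    rw [integral_indicator_const _ isClosed_closedBall.measurableSet, smul_eq_mul]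
  have hfm : AEStronglyMeasurable f volume := by
    rw [hf, aestronglyMeasurable_indicator_iff hPc.measurableSet]
    exact (((hu.1.mono hU).comp T'.continuous.continuousOn (mapsTo_preimage _ _)).sub
      (by fun_prop : Continuous fun p => (T' p) 2).continuousOn).aestronglyMeasurable
      hPc.measurableSet
  have hfi : Integrable f := hBi.mono' hfm (Eventually.of_forall hfb)
  have hint : ∀ a : E3, Integrable fun p => ker0 (a - p) * f p := fun a =>
    hfi.bdd_mul (c := M) ((bump0.continuous_normed.comp (by fun_prop)).aestronglyMeasurable)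
      (Eventually.of_forall fun p => by simpa [Real.norm_eq_abs] using hM1 (a - p))
  have hDc : Continuous (fderiv ℝ ker0) :=
    (bump0.contDiff_normed (n := 1)).continuous_fderiv (by norm_num)
  have hintD : ∀ a : E3, Integrable fun p => f p • fderiv ℝ ker0 (a - p) := fun a =>
    hfi.smul_bdd (f := fun p => fderiv ℝ ker0 (a - p)) M
      (hDc.comp (continuous_const.sub continuous_id)).aestronglyMeasurable
      (Eventually.of_forall fun p => hM2 (a - p))
  have hbound : ∀ (g : E3 → ℝ) (C : ℝ), 0 ≤ C → (∀ p, |g p| ≤ C) →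
      |∫ p, g p * f p| ≤ C * (V * lam) := by
    intro g C hC hg
    rw [← Real.norm_eq_abs, ← hBint, ← integral_const_mul]
    refine norm_integral_le_of_norm_le (hBi.const_mul C) (Eventually.of_forall fun p => ?_)
    rw [norm_mul]
    exact mul_le_mul (hg p) (hfb p) (norm_nonneg _) hC
  set G : E3 → ℝ := fun z => z 2 + ∫ p, ker0 (T z - p) * f p with hG
  refine ⟨G, ?_, ?_, ?_⟩
  · refine LipschitzWith.of_dist_le_mul fun a b => ?_
    rw [Real.dist_eq, dist_eq_norm]
    have h1 : G a - G b = (a - b) 2 + ∫ p, (ker0 (T a - p) - ker0 (T b - p)) * f p := by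
      simp only [sub_mul, integral_sub (hint (T a)) (hint (T b)), hG, PiLp.sub_apply]; ring
    have h2 := hbound (fun p => ker0 (T a - p) - ker0 (T b - p)) (M * ‖T (a - b)‖)
      (by positivity) fun p => by
        have := hM3 (T b - p) (T a - p)
        rwa [sub_sub_sub_cancel_right, ← map_sub] at this
    have h3 := norm_scl_le hlam hlam11 hζ (a - b)
    have h4 : M * (‖a - b‖ / (ζ * s)) * (V * lam) = Λ0 * s * ‖a - b‖ := by
      rw [hΛ0, ← hss]; field_simp
    rw [h1]
    calc |(a - b) 2 + _| ≤ |(a - b) 2| + M * ‖T (a - b)‖ * (V * lam) :=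
          (abs_add_le _ _).trans (by linarith)
      _ ≤ ‖a - b‖ + M * (‖a - b‖ / (ζ * s)) * (V * lam) :=
          add_le_add (abs_le_norm _) (mul_le_mul_of_nonneg_right
            (mul_le_mul_of_nonneg_left h3 hM0) (by positivity))
      _ ≤ ((2 : ℝ≥0) : ℝ) * ‖a - b‖ := by
          rw [h4]; push_cast
          linarith [mul_le_mul_of_nonneg_right hsΛ (norm_nonneg (a - b))]
  · intro y hy
    obtain ⟨hy2, hyl⟩ := bounds_of_ell hlam (ell_eq_one hy).le
    have hyk : ∫ p, ker0 (T y - p) = 1 := by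
      rw [integral_sub_left_eq_self ker0]; exact bump0.integral_normed
    have hci : Integrable fun p => ker0 (T y - p) :=
      (bump0.integrable_normed : Integrable ker0 volume).comp_sub_left (T y)
    have e1 : G y - u y = ∫ p, ker0 (T y - p) * (f p - (u y - y 2)) := by
      simp only [mul_sub]
      rw [integral_sub (f := fun p => ker0 (T y - p) * f p)
        (g := fun p => ker0 (T y - p) * u y - ker0 (T y - p) * y 2) (hint _)
        ((hci.mul_const _).sub (hci.mul_const _)),
        integral_sub (hci.mul_const _) (hci.mul_const _), integral_mul_const, integral_mul_const,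
        hyk, hG]
      ring
    have hpt : ∀ p, ‖ker0 (T y - p) * (f p - (u y - y 2))‖ ≤ ker0 (T y - p) * (om * lam) := by
      intro p
      have hk0 : 0 ≤ ker0 (T y - p) := bump0.nonneg_normed _
      rw [norm_mul, Real.norm_of_nonneg hk0]
      rcases eq_or_ne (ker0 (T y - p)) 0 with h | h
      · simp [h]
      refine mul_le_mul_of_nonneg_left ?_ hk0
      have hq : ‖T y - p‖ ≤ 1 := by
        have hm : T y - p ∈ Function.support (bump0.normed volume) := h
        rw [bump0.support_normed_eq, mem_ball_zero_iff] at hm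
        exact hm.le
      have e : y - T' p = T' (T y - p) := by rw [map_sub, hT, hT', unscl_scl hlam hζ]
      obtain ⟨u0, u1, u2⟩ := unscl_apply lam ζ (T y - p)
      have hd2 : |(y - T' p) 2| ≤ ζ := by
        rw [e, hT', u2, abs_mul, abs_of_pos hζ]
        exact mul_le_of_le_one_right hζ.le ((abs_le_norm _).trans hq)
      have hdl : lat (y - T' p) ≤ ζ * s := by
        rw [e, hT', lat, latSq, u0, u1, ← hs, Real.sqrt_le_left (by positivity)]
        have h1 : latSq (T y - p) ≤ 1 := by
          linarith [norm_sq_eq_lat (T y - p), sq_nonneg ((T y - p) 2),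
            pow_le_one₀ (n := 2) (norm_nonneg _) hq]
        calc _ = (ζ * s) ^ 2 * latSq (T y - p) := by rw [latSq]; ring
          _ ≤ _ := mul_le_of_le_one_right (sq_nonneg _) h1
      have hx2 : |(T' p) 2| ≤ 191 / 200 := by
        rw [PiLp.sub_apply] at hd2
        obtain ⟨_, _⟩ := abs_le.1 hd2
        obtain ⟨_, _⟩ := abs_le.1 hy2
        exact abs_le.2 ⟨by linarith, by linarith⟩
      have hxl : lat (T' p) ≤ 63 * s := by
        have h1 := lat_add_le y ((-1 : ℝ) • (y - T' p))
        rw [show y + (-1 : ℝ) • (y - T' p) = T' p by module, lat_smul, abs_neg, abs_one,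
          one_mul] at h1
        linarith [mul_le_mul_of_nonneg_right (hζ1.trans (by norm_num : (1:ℝ) / 1000 ≤ 1)) hs0.le]
      have hpP : p ∈ P := ⟨hx2.trans (by norm_num), hxl.trans
        (mul_le_mul_of_nonneg_right (by norm_num [R0]) hs0.le)⟩
      rw [hf, indicator_of_mem hpP, Real.norm_eq_abs]
      have h := hmod lam u hlam hl H (T' p) y hx2 hxl (hy2.trans (by norm_num))
        (hyl.trans (mul_le_mul_of_nonneg_right (by norm_num) hs0.le)) hd2 hdl
      rw [abs_sub_comm]
      simp only [PiLp.sub_apply] at h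
      rw [sub_sub_sub_comm]
      exact h
    rw [e1, ← Real.norm_eq_abs]
    refine (norm_integral_le_of_norm_le (hci.mul_const _) (Eventually.of_forall hpt)).trans ?_
    rw [integral_mul_const, hyk, one_mul]
  · intro y hy
    set ell1 := ∫ p, f p • fderiv ℝ ker0 (T y - p) with hell1
    set k := e3 + (InnerProductSpace.toDual ℝ E3).symm (ell1.comp T) with hk
    have hell : ∀ v, ell1 v = ∫ p, fderiv ℝ ker0 (T y - p) v * f p := fun v => by
      rw [hell1, ContinuousLinearMap.integral_apply (hintD _)]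
      exact integral_congr_ae (Eventually.of_forall fun p => by simp [mul_comm])
    have hellb : ∀ v, |ell1 v| ≤ M * ‖v‖ * (V * lam) := fun v => by
      rw [hell]
      exact hbound _ _ (by positivity) fun p => by
        rw [← Real.norm_eq_abs]
        exact (ContinuousLinearMap.le_opNorm _ _).trans
          (mul_le_mul_of_nonneg_right (hM2 _) (norm_nonneg _))
    have hki : ∀ v, ⟪k, v⟫ = v 2 + ell1 (T v) := fun v => by
      rw [hk, inner_add_left, InnerProductSpace.toDual_symm_apply]
      simp [e3, EuclideanSpace.inner_single_left]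
    have hk2 : |k 2 - 1| ≤ Λ0 * lam := by
      rw [← inner_single k 2, hki]
      simp only [PiLp.single_apply, ↓reduceIte, add_sub_cancel_left]
      refine (hellb _).trans (le_of_eq ?_)
      rw [hT, norm_single_scl hlam hζ, hΛ0]; ring
    have hki' : ∀ i : Fin 3, i ≠ 2 → |k i| ≤ Λ0 * s := fun i hi => by
      rw [← inner_single k i, hki]
      have h := (hellb _).trans (mul_le_mul_of_nonneg_right (mul_le_mul_of_nonneg_left
        (norm_scl_le hlam hlam11 hζ (EuclideanSpace.single i (1 : ℝ))) hM0) (by positivity))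
      simp only [PiLp.single_apply, Ne.symm hi, ↓reduceIte, zero_add]
      refine h.trans (le_of_eq ?_)
      rw [PiLp.norm_single, norm_one, hΛ0, ← hs, ← hss]; field_simp
    have hkl : lat k ≤ 2 * Λ0 * s :=
      (lat_le_add k).trans (by linarith [hki' 0 (by decide), hki' 1 (by decide)])
    have hA : ∀ z, |G z - G y - ⟪k, z - y⟫| ≤ M * ‖T (z - y)‖ ^ 2 * (V * lam) := by
      intro z
      have e : G z - G y - ⟪k, z - y⟫ = ∫ p, (ker0 (T z - p) - ker0 (T y - p) -
          fderiv ℝ ker0 (T y - p) (T (z - y))) * f p := by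
        have hi3 : Integrable fun p => fderiv ℝ ker0 (T y - p) (T (z - y)) * f p := by
          have := (hintD (T y)).apply_continuousLinearMap (T (z - y))
          simpa [mul_comm] using this
        simp only [sub_mul]
        rw [integral_sub (f := fun p => ker0 (T z - p) * f p - ker0 (T y - p) * f p)
          ((hint _).sub (hint _)) hi3, integral_sub (hint _) (hint _), hki, ← hell,
          PiLp.sub_apply, hG]
        ring
      rw [e]
      refine hbound _ _ (by positivity) fun p => ?_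
      have := hM4 (T y - p) (T z - p)
      rwa [sub_sub_sub_cancel_right, ← map_sub] at this
    set w : E3 := WithLp.toLp 2 ![y 0 / (3844 * lam), y 1 / (3844 * lam), y 2 / (361 / 400)] with hw
    have hell_w : ∀ z ∈ frontier (dom lam), ell lam (z - y) = -2 * ⟪w, z - y⟫ := by
      intro z hz
      have e1 := ell_eq_one hy
      have e2 := ell_eq_one hz
      rw [← sum_mul_eq_inner, Fin.sum_univ_three, hw]
      simp only [ell, latSq, PiLp.sub_apply, Matrix.cons_val_zero, Matrix.cons_val_one,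
        Matrix.cons_val] at e1 e2 ⊢
      linear_combination e2 - e1
    set m := M * (V * lam) * 3844 / ζ ^ 2 with hm
    have hm0 : 0 ≤ m := by positivity
    have hT2 : ∀ v, M * ‖T v‖ ^ 2 * (V * lam) ≤ m * ell lam v := by
      intro v
      rw [hT, norm_sq_scl hlam, hm]
      have h1 : v 2 ^ 2 + latSq v / lam ≤ 3844 * ell lam v := by
        have : 3844 * ell lam v = 3844 / (361 / 400) * v 2 ^ 2 + latSq v / lam := by
          unfold ell; field_simp
        rw [this]
        linarith [mul_le_mul_of_nonneg_right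
          (show (1 : ℝ) ≤ 3844 / (361 / 400) by norm_num) (sq_nonneg (v 2))]
      calc M * ((v 2 ^ 2 + latSq v / lam) / ζ ^ 2) * (V * lam)
          = M * (V * lam) / ζ ^ 2 * (v 2 ^ 2 + latSq v / lam) := by ring
        _ ≤ M * (V * lam) / ζ ^ 2 * (3844 * ell lam v) :=
            mul_le_mul_of_nonneg_left h1 (by positivity)
        _ = _ := by ring
    obtain ⟨hy2, hyl⟩ := bounds_of_ell hlam (ell_eq_one hy).le
    have hw2 : |w 2| ≤ 2 := by
      have : w 2 = y 2 / (361 / 400) := by simp [hw]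
      rw [this, abs_div, div_le_iff₀ (by norm_num)]; norm_num; linarith
    have hwl : lat w * lam ≤ s := by
      have : lat w = lat y / (3844 * lam) := by
        rw [lat, lat, ← Real.sqrt_sq (show (0 : ℝ) ≤ 3844 * lam by positivity),
          ← Real.sqrt_div (latSq_nonneg y)]
        congr 1
        simp [hw, latSq]; ring
      rw [this, div_mul_eq_mul_div, div_le_iff₀ (by positivity)]
      nlinarith [mul_le_mul_of_nonneg_right hyl hlam.le, mul_pos hs0 hlam]
    have hmΛ : 2 * m * 2 ≤ Λ2 * lam := by rw [hm, hΛ2]; exact le_of_eq (by ring)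
    have hmem : ∀ c : ℝ, |c| = 1 → k + (c * (2 * m)) • w ∈ slopeSet (2 * Λ0 + 2 * Λ2 + 1) lam := by
      intro c hc
      have hcm : |c * (2 * m)| = 2 * m := by
        rw [abs_mul, hc, one_mul, abs_of_nonneg (by linarith)]
      have hΛ00 : 0 ≤ Λ0 := by positivity
      have hΛ20 : 0 ≤ Λ2 := by positivity
      constructor
      · have h1 : (k + (c * (2 * m)) • w) 2 - 1 = (k 2 - 1) + c * (2 * m) * w 2 := by simp; ring
        have h2 : |c * (2 * m) * w 2| ≤ 2 * m * 2 := by
          rw [abs_mul, hcm]; exact mul_le_mul_of_nonneg_left hw2 (by linarith)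
        rw [h1]
        linarith [abs_add_le (k 2 - 1) (c * (2 * m) * w 2), mul_nonneg hΛ00 hlam.le,
          mul_nonneg hΛ20 hlam.le]
      · refine (lat_add_le _ _).trans ?_
        rw [lat_smul, hcm, ← hs]
        have e : 2 * m * lat w = Λ2 / 2 * (lat w * lam) := by rw [hm, hΛ2]; ring
        rw [e]
        linarith [mul_le_mul_of_nonneg_left hwl (by linarith : 0 ≤ Λ2 / 2),
          mul_nonneg hΛ20 hs0.le]
    refine ⟨_, hmem (-1) (by norm_num), _, hmem 1 (by norm_num), fun z hz => ?_⟩
    have h := abs_le.1 ((hA z).trans (hT2 (z - y)))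
    rw [hell_w z hz] at h
    simp only [inner_add_left, real_inner_smul_left]
    constructor <;> linarith

end Vale.Agent.P080.C1.Compare
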