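import Vale.Agent.P080.C1.Iface
import Vale.Agent.P080.C1.Compare.Cone

/-!
# Modulus of continuity of a flat configuration in the scaled variables

Only comparison with cones from above is used. The key is `Sub1.step`: a drop of the deviation
along a vertical line forces a slightly larger drop at a scale twenty times larger.
-/

namespace Vale.Agent.P080.C1.Compare

open scoped ContDiff Topology RealInnerProductSpace
open Set Filter Metric

/-- a flat subsolution on the cylinder -/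
def Sub1 (lam : ℝ) (u : E3 → ℝ) : Prop :=
  ∃ U, IsOpen U ∧ IsSub u U ∧ box lam ⊆ U ∧ ∀ x ∈ box lam, |u x - x 2| ≤ lam

lemma Sub1.of_conf {lam : ℝ} {u : E3 → ℝ} (h : Conf lam u) : Sub1 lam u := by
  obtain ⟨U, h1, h2, h3, h4⟩ := h
  exact ⟨U, h1, h2.1, h3, h4⟩

/-- vertices from which the cone bound holds -/
def core (lam : ℝ) : Set E3 := {x | |x 2| ≤ 99 / 100 ∧ lat x ≤ 63 * Real.sqrt lam}

/-- deviation from the vertical coordinate along the vertical line through `x` -/
noncomputable def axis (u : E3 → ℝ) (x : E3) (t : ℝ) : ℝ := u (x + t • e3) - (x 2 + t)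

lemma add_axis_two (x : E3) (t : ℝ) : (x + t • e3) 2 = x 2 + t := by simp [e3]

lemma lat_add_axis (x : E3) (t : ℝ) : lat (x + t • e3) = lat x := by
  simp [lat, latSq, e3]

lemma norm_sq_add_axis (w : E3) (t : ℝ) : ‖w + t • e3‖ ^ 2 = ‖w‖ ^ 2 + 2 * t * w 2 + t ^ 2 := by
  rw [norm_sq_eq_lat, norm_sq_eq_lat, add_axis_two, ← lat_sq, ← lat_sq, lat_add_axis]; ring

lemma core_subset_box (lam : ℝ) : core lam ⊆ box lam := fun x hx =>
  ⟨hx.1.trans (by norm_num),
    hx.2.trans (mul_le_mul_of_nonneg_right (by norm_num [R0]) (Real.sqrt_nonneg _))⟩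

lemma isCompact_box {lam : ℝ} (hlam : 0 < lam) : IsCompact (box lam) := by
  refine (isCompact_gau_le hlam R0).of_isClosed_subset ?_ fun x hx =>
    max_le (hx.1.trans (by norm_num [R0])) ((div_le_iff₀ (Real.sqrt_pos.2 hlam)).2 hx.2)
  exact (isClosed_le (f := fun x : E3 => |x 2|) (by fun_prop) continuous_const).inter
    (isClosed_le continuous_lat continuous_const)

lemma frontier_box {lam : ℝ} {z : E3} (hz : z ∈ frontier (box lam)) :
    |z 2| = 1 ∨ lat z = R0 * Real.sqrt lam := by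
  have hc : IsClosed (box lam) :=
    (isClosed_le (f := fun x : E3 => |x 2|) (by fun_prop) continuous_const).inter
      (isClosed_le continuous_lat continuous_const)
  rw [hc.frontier_eq] at hz
  by_contra hcon
  simp only [not_or] at hcon
  refine hz.2 (mem_interior.2 ⟨{y : E3 | |y 2| < 1 ∧ lat y < R0 * Real.sqrt lam},
    fun y hy => ⟨hy.1.le, hy.2.le⟩, ?_, hz.1.1.lt_of_ne hcon.1, hz.1.2.lt_of_ne hcon.2⟩)
  exact (isOpen_lt (f := fun y : E3 => |y 2|) (by fun_prop) continuous_const).inter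
    (isOpen_lt continuous_lat continuous_const)

/-- a lateral displacement by `√lam` costs at least `lam / (2c)` of length -/
lemma lateral_gain {lam c : ℝ} (hlam : 0 < lam) {w : E3} (hw : Real.sqrt lam ≤ lat w)
    (hn : ‖w‖ ≤ c) : lam ≤ 2 * c * (‖w‖ - w 2) := by
  have h1 : lam ≤ lat w ^ 2 := by
    rw [← Real.sq_sqrt hlam.le]; exact pow_le_pow_left₀ (Real.sqrt_nonneg _) hw 2
  rw [lat_sq] at h1
  have h2 := norm_sq_eq_lat w
  have h3 := abs_le.1 (abs_le_norm w)
  have h4 : (‖w‖ + w 2) * (‖w‖ - w 2) ≤ 2 * c * (‖w‖ - w 2) :=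
    mul_le_mul_of_nonneg_right (by linarith) (by linarith)
  nlinarith

lemma lat_sub_ge {lam : ℝ} {x z : E3} (hx : lat x ≤ 63 * Real.sqrt lam)
    (hz : lat z = R0 * Real.sqrt lam) : Real.sqrt lam ≤ lat (z - x) := by
  have := lat_add_le (z - x) x
  rw [sub_add_cancel, hz, R0] at this
  linarith

/-- cone bound from any vertex of the core -/
lemma Sub1.slope {lam : ℝ} {u : E3 → ℝ} (H : Sub1 lam u) (hlam : 0 < lam) (hl : lam ≤ 1 / 10 ^ 8)
    {x : E3} (hx : x ∈ core lam) {y : E3} (hy : y ∈ box lam) :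
    u y ≤ u x + (1 + 200 * lam) * ‖y - x‖ := by
  obtain ⟨U, _, hu, hU, hflat⟩ := H
  have hxb := core_subset_box lam hx
  have hs : Real.sqrt lam ≤ 1 / 1000 := by
    rw [Real.sqrt_le_left (by norm_num)]; linarith
  refine hu.cone_on (isCompact_box hlam) hU hxb (ρ := 3) (by norm_num) (by linarith)
    (fun z hz => ?_) (fun z hz => ?_) hy
  · have h1 : ‖z - x‖ ≤ lat (z - x) + |(z - x) 2| := by
      refine le_of_pow_le_pow_left₀ two_ne_zero (add_nonneg (lat_nonneg _) (abs_nonneg _)) ?_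
      rw [norm_sq_eq_lat, add_sq, lat_sq, sq_abs]
      have := mul_nonneg (lat_nonneg (z - x)) (abs_nonneg ((z - x) 2))
      linarith
    have h2 : lat (z - x) ≤ lat z + lat x := by
      rw [sub_eq_add_neg]; refine (lat_add_le _ _).trans ?_
      rw [show -x = (-1 : ℝ) • x by simp, lat_smul]; simp
    have h3 : |(z - x) 2| ≤ |z 2| + |x 2| := by simp only [PiLp.sub_apply]; exact abs_sub _ _
    have h4 : lat z ≤ 64 * Real.sqrt lam := by simpa [R0] using hz.2
    linarith [hx.1, hx.2, hz.1]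
  · have hzb : z ∈ box lam := (isCompact_box hlam).isClosed.frontier_subset hz
    have h1 := abs_le.1 (hflat z hzb)
    have h2 := abs_le.1 (hflat x hxb)
    have h3 : (z - x) 2 = z 2 - x 2 := by simp
    have h4 := abs_le.1 (abs_le_norm (z - x))
    suffices (z - x) 2 + 2 * lam ≤ (1 + 200 * lam) * ‖z - x‖ by linarith
    rcases le_or_gt (1 / 100) ‖z - x‖ with hbig | hsmall
    · nlinarith
    rcases frontier_box hz with ht | hlat
    · exfalso
      have := abs_sub_abs_le_abs_sub (z 2) (x 2)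
      rw [ht, ← h3] at this
      linarith [hx.1, abs_le_norm (z - x)]
    · have := lateral_gain hlam (lat_sub_ge hx.2 hlat) hsmall.le
      nlinarith [norm_nonneg (z - x)]

lemma Sub1.axis_mono {lam : ℝ} {u : E3 → ℝ} (H : Sub1 lam u) (hlam : 0 < lam)
    (hl : lam ≤ 1 / 10 ^ 8) {x : E3} (hx : lat x ≤ 63 * Real.sqrt lam) {t1 t2 : ℝ} (ht : t1 ≤ t2)
    (h1 : |x 2 + t1| ≤ 99 / 100) (h2 : |x 2 + t2| ≤ 1) :
    axis u x t2 - axis u x t1 ≤ 200 * lam * (t2 - t1) := by
  have hR : lat x ≤ R0 * Real.sqrt lam := hx.trans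
    (mul_le_mul_of_nonneg_right (by norm_num [R0]) (Real.sqrt_nonneg _))
  have h := H.slope hlam hl (x := x + t1 • e3) (y := x + t2 • e3)
    ⟨by rwa [add_axis_two], by rwa [lat_add_axis]⟩ ⟨by rwa [add_axis_two], by rwa [lat_add_axis]⟩
  rw [add_sub_add_left_eq_sub, ← sub_smul, norm_smul, norm_e3, Real.norm_eq_abs,
    abs_of_nonneg (sub_nonneg.2 ht), mul_one] at h
  unfold axis
  linarith

lemma Sub1.abs_axis {lam : ℝ} {u : E3 → ℝ} (H : Sub1 lam u) {x : E3}
    (hx : lat x ≤ 63 * Real.sqrt lam) {t : ℝ} (h : |x 2 + t| ≤ 1) : |axis u x t| ≤ lam := by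
  obtain ⟨U, _, _, _, hflat⟩ := H
  have := hflat (x + t • e3) ⟨by rwa [add_axis_two], by
    rw [lat_add_axis]; exact hx.trans
      (mul_le_mul_of_nonneg_right (by norm_num [R0]) (Real.sqrt_nonneg _))⟩
  rwa [add_axis_two] at this

/-- A drop between the times `-a` and `a` forces a drop between `-10a` and `-a/2`. -/
lemma Sub1.drop_back {lam : ℝ} {u : E3 → ℝ} (H : Sub1 lam u) (hlam : 0 < lam)
    (hl : lam ≤ 1 / 10 ^ 8) {x : E3} (hx : lat x ≤ 63 * Real.sqrt lam) {a : ℝ} (hla : lam ≤ a)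
    (ha : a ≤ 1 / 1000) (hxa : |x 2| + 10 * a ≤ 99 / 100) :
    7 * (axis u x (-a) - axis u x a) ≤
      198 * (axis u x (-(10 * a)) - axis u x (-(a / 2))) + 400000 * (lam * a) := by
  obtain ⟨hx1, hx2⟩ := abs_le.1 (le_refl |x 2|)
  have hbd : ∀ t, |t| ≤ 10 * a → |x 2 + t| ≤ 99 / 100 := fun t ht =>
    (abs_add_le _ _).trans (by linarith)
  have hcore : ∀ t, |t| ≤ 10 * a → x + t • e3 ∈ core lam := fun t ht =>
    ⟨by rw [add_axis_two]; exact hbd t ht, by rwa [lat_add_axis]⟩
  have ha0 : 0 < a := lt_of_lt_of_le hlam hla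
  set D := axis u x (-a) - axis u x a with hD
  set E' := axis u x (-(10 * a)) - axis u x (-a) with hE
  have g1 := abs_le.1 (H.abs_axis hx (t := -a) ((hbd (-a) (by rw [abs_neg, abs_of_pos ha0]; linarith)).trans (by norm_num)))
  have g2 := abs_le.1 (H.abs_axis hx (t := a) ((hbd a (by rw [abs_of_pos ha0]; linarith)).trans (by norm_num)))
  have g3 := abs_le.1 (H.abs_axis hx (t := -(10 * a)) ((hbd _ (by rw [abs_neg, abs_of_pos (by positivity)])).trans (by norm_num)))
  have hmono := H.axis_mono hlam hl hx (t1 := -(10 * a)) (t2 := -a) (by linarith)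
    (hbd _ (by rw [abs_neg, abs_of_pos (by positivity)]))
    ((hbd _ (by rw [abs_neg, abs_of_pos ha0]; linarith)).trans (by norm_num))
  set m := (4 * E' - 7 * D) / 11 + 3600 * (lam * a) with hm
  have hla' : 0 ≤ lam * a := by positivity
  have hm2 : -(2 * lam) ≤ m := by rw [hm]; linarith
  set k := 1 + m / (9 * a) with hk
  have hk0 : 0 ≤ k := by
    have : -1 ≤ m / (9 * a) := by rw [le_div_iff₀ (by positivity)]; linarith
    linarith
  set x' := x + (-a) • e3 with hx'
  have hx'c : x' ∈ core lam := hcore _ (by rw [abs_neg, abs_of_pos ha0]; linarith)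
  have key : u (x + (-(a / 2)) • e3) ≤ u x' + k * ‖x + (-(a / 2)) • e3 - x'‖ := by
    obtain ⟨U, hUo, hu, hU, hflat⟩ := id H
    refine hu.cone_on ((isCompact_closedBall x' (9 * a)).inter_right (isCompact_box hlam).isClosed)
      (inter_subset_right.trans hU) ⟨mem_closedBall_self (by positivity), core_subset_box lam hx'c⟩
      (ρ := 9 * a) (by positivity) hk0 (fun z hz => by simpa [dist_eq_norm] using hz.1)
      (fun z hz => ?_) ⟨?_, core_subset_box lam (hcore _ (by
        rw [abs_neg, abs_of_pos (by positivity)]; linarith))⟩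
    swap
    · rw [mem_closedBall, dist_eq_norm, hx', add_sub_add_left_eq_sub, ← sub_smul, norm_smul,
        norm_e3, Real.norm_eq_abs, abs_of_nonneg (by linarith)]
      linarith
    have hzS : z ∈ closedBall x' (9 * a) ∩ box lam :=
      (isClosed_closedBall.inter (isCompact_box hlam).isClosed).frontier_subset hz
    set w := z - x' with hw
    have hn : ‖w‖ ≤ 9 * a := by simpa [dist_eq_norm] using hzS.1
    have hw2 := abs_le.1 (abs_le_norm w)
    have hzw : z 2 = x 2 + -a + w 2 := by simp [hw, hx', e3]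
    rcases frontier_inter_subset _ _ hz with hs | hs
    · have hn9 : ‖w‖ = 9 * a := by
        have := frontier_closedBall_subset_sphere hs.1
        simpa [dist_eq_norm] using this
      rw [hn9] at hw2 ⊢
      set q := 9 * a - w 2 with hq
      have hp : ‖z - (x + a • e3)‖ ≤ 7 * a + 2 * q / 7 := by
        have e : z - (x + a • e3) = w + (-(2 * a)) • e3 := by rw [hw, hx']; module
        refine le_of_pow_le_pow_left₀ two_ne_zero (by linarith) ?_
        rw [e, norm_sq_add_axis, hn9]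
        linarith [sq_nonneg q,
          show (7 * a + 2 * q / 7) ^ 2 = 49 * a ^ 2 + 4 * a * q + 4 / 49 * q ^ 2 by ring,
          show (9 * a) ^ 2 + 2 * -(2 * a) * w 2 + (-(2 * a)) ^ 2 = 49 * a ^ 2 + 4 * a * q by
            rw [hq]; ring]
      have hr : ‖z - (x + (-(10 * a)) • e3)‖ ≤ 18 * a - q / 2 := by
        have e : z - (x + (-(10 * a)) • e3) = w + (9 * a) • e3 := by rw [hw, hx']; module
        refine le_of_pow_le_pow_left₀ two_ne_zero (by linarith) ?_
        rw [e, norm_sq_add_axis, hn9]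
        linarith [sq_nonneg q,
          show (18 * a - q / 2) ^ 2 = 324 * a ^ 2 - 18 * a * q + 1 / 4 * q ^ 2 by ring,
          show (9 * a) ^ 2 + 2 * (9 * a) * w 2 + (9 * a) ^ 2 = 324 * a ^ 2 - 18 * a * q by
            rw [hq]; ring]
      have s1 := H.slope hlam hl (hcore a (by rw [abs_of_pos ha0]; linarith)) hzS.2
      have s2 := H.slope hlam hl (hcore (-(10 * a)) (by rw [abs_neg, abs_of_pos (by positivity)]))
        hzS.2
      have t1 : lam * ‖z - (x + a • e3)‖ ≤ lam * (18 * a) :=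
        mul_le_mul_of_nonneg_left (by linarith) hlam.le
      have t2 : lam * ‖z - (x + (-(10 * a)) • e3)‖ ≤ lam * (18 * a) :=
        mul_le_mul_of_nonneg_left (by linarith) hlam.le
      have hk9 : k * (9 * a) = 9 * a + m := by rw [hk]; field_simp
      rw [hk9, hm, hD, hE, axis, axis, axis, hx']
      linarith
    · rcases frontier_box hs.2 with ht | hlat
      · exfalso
        rw [hzw] at ht
        have h1 := abs_add_le (x 2 + -a) (w 2)
        have h2 := abs_add_le (x 2) (-a)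
        rw [abs_neg, abs_of_pos ha0] at h2
        linarith [abs_le_norm w]
      · have hg := lateral_gain hlam (lat_sub_ge hx'c.2 hlat) hn
        have hpos : 0 ≤ ‖w‖ - w 2 := by linarith
        have hg' : 50 * lam ≤ ‖w‖ - w 2 := by
          nlinarith [mul_le_mul_of_nonneg_right ha hpos]
        have hkn : ‖w‖ - 2 * lam ≤ k * ‖w‖ := by
          have h3 : m * (‖w‖ / (9 * a)) ≥ -(2 * lam) := by
            have h4 : ‖w‖ / (9 * a) ≤ 1 := (div_le_one (by positivity)).2 hn
            have h5 : 0 ≤ ‖w‖ / (9 * a) := by positivity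
            nlinarith
          have : k * ‖w‖ = ‖w‖ + m * (‖w‖ / (9 * a)) := by rw [hk]; field_simp
          linarith
        have f1 := abs_le.1 (hflat z hzS.2)
        have f2 := abs_le.1 (hflat x' (core_subset_box lam hx'c))
        have f3 : x' 2 = x 2 + -a := add_axis_two x (-a)
        linarith
  have hnorm : ‖x + (-(a / 2)) • e3 - x'‖ = a / 2 := by
    rw [hx', add_sub_add_left_eq_sub, ← sub_smul, norm_smul, norm_e3, Real.norm_eq_abs,
      abs_of_nonneg (by linarith)]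
    ring
  rw [hnorm] at key
  have hka : k * (a / 2) = a / 2 + m / 18 := by rw [hk]; field_simp; ring
  rw [hka] at key
  have hy : axis u x (-(a / 2)) - axis u x (-a) ≤ m / 18 := by
    unfold axis; rw [← hx']; linarith
  rw [hm] at hy
  linarith

/-- drop of the deviation over the interval `[-s, s]` -/
noncomputable def drop (u : E3 → ℝ) (x : E3) (s : ℝ) : ℝ := axis u x (-s) - axis u x s

lemma Sub1.step {lam : ℝ} {u : E3 → ℝ} (H : Sub1 lam u) (hlam : 0 < lam)
    (hl : lam ≤ 1 / 10 ^ 8) {x : E3} (hx : lat x ≤ 63 * Real.sqrt lam) {s : ℝ} (hls : lam ≤ s)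
    (hs : 20 * s ≤ 1 / 1000) (hxs : |x 2| ≤ 24 / 25) :
    205 * drop u x s ≤ 198 * drop u x (20 * s) + 1600000 * (lam * s) := by
  have hs0 : 0 < s := lt_of_lt_of_le hlam hls
  have hbd : ∀ t, |t| ≤ 20 * s → |x 2 + t| ≤ 99 / 100 := fun t ht =>
    (abs_add_le _ _).trans (by linarith)
  have b : ∀ t, |t| ≤ 20 * s → |x 2 + t| ≤ 1 := fun t ht => (hbd t ht).trans (by norm_num)
  have p : ∀ c : ℝ, 0 ≤ c → c ≤ 20 → |c * s| ≤ 20 * s := fun c h1 h2 => by
    rw [abs_of_nonneg (by positivity)]; exact mul_le_mul_of_nonneg_right h2 hs0.le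
  have n : ∀ c : ℝ, 0 ≤ c → c ≤ 20 → |-(c * s)| ≤ 20 * s := fun c h1 h2 => by
    rw [abs_neg]; exact p c h1 h2
  have h := H.drop_back hlam hl hx (a := 2 * s) (by linarith) (by linarith) (by linarith)
  rw [show 10 * (2 * s) = 20 * s by ring, show 2 * s / 2 = 1 * s by ring] at h
  have m1 := H.axis_mono hlam hl hx (t1 := -(2 * s)) (t2 := -(1 * s)) (by linarith)
    (hbd _ (n 2 (by norm_num) (by norm_num))) (b _ (n 1 (by norm_num) (by norm_num)))
  have m2 := H.axis_mono hlam hl hx (t1 := 1 * s) (t2 := 2 * s) (by linarith)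
    (hbd _ (p 1 (by norm_num) (by norm_num))) (b _ (p 2 (by norm_num) (by norm_num)))
  have m3 := H.axis_mono hlam hl hx (t1 := 1 * s) (t2 := 20 * s) (by linarith)
    (hbd _ (p 1 (by norm_num) (by norm_num))) (b _ (p 20 (by norm_num) (by norm_num)))
  simp only [drop, one_mul] at h m1 m2 m3 ⊢
  nlinarith

lemma Sub1.drop_le {lam : ℝ} {u : E3 → ℝ} (H : Sub1 lam u) (hlam : 0 < lam)
    (hl : lam ≤ 1 / 10 ^ 8) {x : E3} (hx : lat x ≤ 63 * Real.sqrt lam) (hxs : |x 2| ≤ 24 / 25)
    (n : ℕ) : ∀ s : ℝ, lam ≤ s → 20 ^ n * s ≤ 1 / 1000 →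
      drop u x s ≤ (198 / 205) ^ n * (2 * lam) + 12000 * (lam * (20 ^ n * s)) := by
  induction n with
  | zero =>
    intro s hls hs
    simp only [pow_zero, one_mul] at hs ⊢
    have hs0 : 0 < s := lt_of_lt_of_le hlam hls
    have g1 := abs_le.1 (H.abs_axis hx (t := -s) ((abs_add_le _ _).trans (by
      rw [abs_neg, abs_of_pos hs0]; linarith)))
    have g2 := abs_le.1 (H.abs_axis hx (t := s) ((abs_add_le _ _).trans (by
      rw [abs_of_pos hs0]; linarith)))
    have : 0 ≤ lam * s := by positivity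
    simp only [drop]; linarith
  | succ n ih =>
    intro s hls hs
    have hs0 : 0 < s := lt_of_lt_of_le hlam hls
    have hp : (1 : ℝ) ≤ 20 ^ n := one_le_pow₀ (by norm_num)
    rw [pow_succ] at hs
    have h1 : 20 * s ≤ 1 / 1000 := by nlinarith
    have h2 := ih (20 * s) (by linarith) (by linarith)
    have h3 := H.step hlam hl hx hls h1 hxs
    have h4 : lam * s ≤ lam * (20 ^ n * s) :=
      mul_le_mul_of_nonneg_left (le_mul_of_one_le_left hs0.le hp) hlam.le
    have h5 : 0 ≤ lam * (20 ^ n * s) := by positivity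
    rw [pow_succ, pow_succ]
    linarith

/-- no sudden drop along vertical lines -/
lemma exists_axis_modulus {om : ℝ} (hom : 0 < om) (hom1 : om ≤ 1) :
    ∃ s : ℝ, 0 < s ∧ 400 * s ≤ om ∧ 10000 * s ≤ 1 ∧ ∀ lam u, 0 < lam → lam ≤ 1 / 10 ^ 8 →
      lam ≤ s → Sub1 lam u → ∀ x : E3, lat x ≤ 63 * Real.sqrt lam → |x 2 + s| ≤ 24 / 25 →
      ∀ δ, 0 ≤ δ → δ ≤ 2 * s → axis u x 0 - axis u x δ ≤ 2 * om * lam := by
  obtain ⟨n, hn⟩ := exists_pow_lt_of_lt_one (x := om / 4) (by linarith)
    (show (198 / 205 : ℝ) < 1 by norm_num)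
  have hp : (1 : ℝ) ≤ 20 ^ n := one_le_pow₀ (by norm_num)
  set s := om / 24000 / 20 ^ n with hs
  have hs0 : 0 < s := by positivity
  have hs1 : 20 ^ n * s = om / 24000 := by rw [hs]; field_simp
  have hs2 : s ≤ om / 24000 := hs1 ▸ le_mul_of_one_le_left hs0.le hp
  refine ⟨s, hs0, by linarith, by linarith, fun lam u hlam hl hls H x hx hxs δ hδ0 hδ => ?_⟩
  have h := H.drop_le hlam hl (x := x + s • e3) (by rwa [lat_add_axis])
    (by rwa [add_axis_two]) n s hls (by rw [hs1]; linarith)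
  have hr : (198 / 205 : ℝ) ^ n * (2 * lam) ≤ om / 4 * (2 * lam) :=
    mul_le_mul_of_nonneg_right hn.le (by linarith)
  have hdrop : drop u (x + s • e3) s = axis u x 0 - axis u x (2 * s) := by
    simp only [drop, axis, add_axis_two]
    rw [show x + s • e3 + (-s) • e3 = x + (0 : ℝ) • e3 by module,
      show x + s • e3 + s • e3 = x + (2 * s) • e3 by module]
    ring
  obtain ⟨q1, q2⟩ := abs_le.1 hxs
  have hb : ∀ t, 0 ≤ t → t ≤ 2 * s → |x 2 + t| ≤ 99 / 100 := fun t h1 h2 =>
    abs_le.2 ⟨by linarith, by linarith⟩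
  have hm := H.axis_mono hlam hl hx hδ (hb δ hδ0 hδ) ((hb (2 * s) (by linarith) le_rfl).trans
    (by norm_num))
  rw [hdrop, hs1] at h
  have : lam * (2 * s - δ) ≤ lam * (om / 200) := mul_le_mul_of_nonneg_left (by linarith) hlam.le
  linarith

/-- one-sided modulus in the scaled variables -/
lemma exists_modulus_one {om : ℝ} (hom : 0 < om) :
    ∃ ζ lam0 : ℝ, 0 < ζ ∧ ζ ≤ 1 / 1000 ∧ 0 < lam0 ∧ lam0 ≤ 1 / 10 ^ 8 ∧
      ∀ lam u, 0 < lam → lam ≤ lam0 → Sub1 lam u → ∀ x y : E3,
        |x 2| ≤ 191 / 200 → lat x ≤ 63 * Real.sqrt lam → |y 2| ≤ 191 / 200 →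
        lat y ≤ 63 * Real.sqrt lam → |(y - x) 2| ≤ ζ → lat (y - x) ≤ ζ * Real.sqrt lam →
        u y - u x - (y - x) 2 ≤ om * lam := by
  set o := min om 1 / 4 with ho
  have ho0 : 0 < o := by positivity
  have ho1 : o ≤ 1 / 4 := by rw [ho]; linarith [min_le_right om 1]
  have ho4 : 4 * o ≤ om := by rw [ho]; linarith [min_le_left om 1]
  obtain ⟨s, hs0, hs400, hs10, hax⟩ := exists_axis_modulus ho0 (by linarith)
  have hos : 0 < o * s := by positivity
  refine ⟨o * s, min (1 / 10 ^ 8) s, hos, by nlinarith, by positivity, min_le_left _ _,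
    fun lam u hlam hl H x y hx2 hxl hy2 hyl h2 hlt => ?_⟩
  have hl1 : lam ≤ 1 / 10 ^ 8 := hl.trans (min_le_left _ _)
  have hls : lam ≤ s := hl.trans (min_le_right _ _)
  rw [PiLp.sub_apply] at h2 ⊢
  obtain ⟨a1, a2⟩ := abs_le.1 h2
  obtain ⟨b1, b2⟩ := abs_le.1 hx2
  obtain ⟨c1, c2⟩ := abs_le.1 hy2
  have hos2 : o * s ≤ s / 4 := by nlinarith
  set δ := 3 * s / 4 with hδ
  set p := x + (-δ) • e3 with hp
  have hp2 : p 2 = x 2 + -δ := add_axis_two _ _
  have hpl : lat p = lat x := lat_add_axis _ _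
  have hdrop := hax lam u hlam hl1 hls H p (by rwa [hpl])
    (abs_le.2 ⟨by linarith, by linarith⟩) δ (by linarith) (by linarith)
  have hpx : p + δ • e3 = x := by rw [hp]; module
  simp only [axis, zero_smul, add_zero, hpx, hp2] at hdrop
  have hslope := H.slope hlam hl1 (x := p) (y := y)
    ⟨abs_le.2 ⟨by linarith, by linarith⟩, by rwa [hpl]⟩
    ⟨hy2.trans (by norm_num), hyl.trans
      (mul_le_mul_of_nonneg_right (by norm_num [R0]) (Real.sqrt_nonneg _))⟩
  set τ := y 2 - p 2 with hτ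
  have hτ1 : s / 2 ≤ τ := by linarith
  have hlat : lat (y - p) ≤ o * s * Real.sqrt lam := by
    have e : y - p = (y - x) + δ • e3 := by rw [hp]; module
    rwa [e, lat_add_axis]
  have hnorm : ‖y - p‖ ≤ τ + o * lam := by
    refine le_of_pow_le_pow_left₀ two_ne_zero (add_nonneg (by linarith) (by positivity)) ?_
    rw [norm_sq_eq_lat, ← lat_sq, PiLp.sub_apply, ← hτ]
    have h6 : lat (y - p) ^ 2 ≤ (o * s) ^ 2 * lam := by
      calc _ ≤ (o * s * Real.sqrt lam) ^ 2 := pow_le_pow_left₀ (lat_nonneg _) hlat 2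
        _ = _ := by rw [mul_pow (o * s), Real.sq_sqrt hlam.le]
    have h7 : o * s * s * o * lam ≤ 1 * s * o * lam := by
      have : o * s ≤ 1 := by linarith
      gcongr
    have h8 : s * (o * lam) ≤ 2 * τ * (o * lam) :=
      mul_le_mul_of_nonneg_right (by linarith) (by positivity)
    nlinarith [sq_nonneg (o * lam)]
  have h9 : lam * ‖y - p‖ ≤ lam * (2 * s) := by
    refine mul_le_mul_of_nonneg_left ?_ hlam.le
    nlinarith
  have h10 : lam * (400 * s) ≤ lam * o := mul_le_mul_of_nonneg_left (by linarith) hlam.le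
  have h11 : (4 * o) * lam ≤ om * lam := mul_le_mul_of_nonneg_right ho4 hlam.le
  linarith

/-- modulus of continuity in the scaled variables -/
theorem exists_modulus {om : ℝ} (hom : 0 < om) :
    ∃ ζ lam0 : ℝ, 0 < ζ ∧ ζ ≤ 1 / 1000 ∧ 0 < lam0 ∧ lam0 ≤ 1 / 10 ^ 8 ∧
      ∀ lam u, 0 < lam → lam ≤ lam0 → Sub1 lam u → ∀ x y : E3,
        |x 2| ≤ 191 / 200 → lat x ≤ 63 * Real.sqrt lam → |y 2| ≤ 191 / 200 →
        lat y ≤ 63 * Real.sqrt lam → |(y - x) 2| ≤ ζ → lat (y - x) ≤ ζ * Real.sqrt lam →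
        |u y - u x - (y - x) 2| ≤ om * lam := by
  obtain ⟨ζ, lam0, hζ, hζ1, h0, h01, h⟩ := exists_modulus_one hom
  refine ⟨ζ, lam0, hζ, hζ1, h0, h01, fun lam u hlam hl H x y hx hx' hy hy' h2 hlt => ?_⟩
  have a := h lam u hlam hl H x y hx hx' hy hy' h2 hlt
  have e : x - y = (-1 : ℝ) • (y - x) := by module
  have b := h lam u hlam hl H y x hy hy' hx hx'
    (by rw [e]; simpa [abs_sub_comm] using h2) (by rwa [e, lat_smul, abs_neg, abs_one, one_mul])
  simp only [PiLp.sub_apply] at a b ⊢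
  exact abs_le.2 ⟨by linarith, by linarith⟩

end Vale.Agent.P080.C1.Compare
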